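import Vale.Agent.P215.AI.Orbit

/-!
# P215: consequences
-/

noncomputable section

namespace Vale.Agent.P215.AI

open Vale.Agent.P215.H788 Vale.Agent.P215.Am Vale.Agent.P215.TV Set Topology
open scoped Pointwise

theorem move_lt_of_label {G : CappedGrope} {Γ X : Type} [Group Γ] [MulAction Γ X]
    {φ : FundamentalGroup G.Thickening G.basePt →* Γ} {μ : X → ℝ}
    (h : ∀ g ∈ values G φ, move μ g < 2 / 3) {c : Tip} {g : Γ} (hg : g ∈ labelsOn G φ c) :
    move μ g < 2 / 3 := by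
  obtain ⟨k, s, p, q, -, rfl⟩ := hg
  split_ifs
  · rw [move_inv]
    exact h _ ⟨k, p, q, rfl⟩
  · exact h _ ⟨k, p, q, rfl⟩

section

variable (G : CappedGrope) (Γ X : Type) [Group Γ] [MulAction Γ X]
  (hst : ∀ x : X, IsAmenable (MulAction.stabilizer Γ x))
  (φ : FundamentalGroup G.Thickening G.basePt →* Γ)

include hst

theorem null_of_uniform (μ : X → ℝ) (h0 : ∀ x, 0 ≤ μ x) (h1 : HasSum μ 1)
    (h : ∀ g ∈ values G φ, move μ g < 2 / 3) : Null G φ := by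
  refine null_of_action G Γ X hst φ μ h0 h1 fun j i g h2 h3 h4 _ _ => ?_
  rw [Fin.sum_univ_three]
  have e2 := move_lt_of_label h h2
  have e3 := move_lt_of_label h h3
  have e4 := move_lt_of_label h h4
  linarith

/-- The criterion with averages. -/
theorem null_of_cheeger (h : ∀ (n : ℕ) (g : Fin n → Γ) (p : Fin n → ℝ),
    (∀ i, g i ∈ values G φ) → (∀ i, 0 ≤ p i) → ∑ i, p i = 1 →
    ∃ μ : X → ℝ, (∀ x, 0 ≤ μ x) ∧ HasSum μ 1 ∧ ∑ i, p i * move μ (g i) < 2 / 3) :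
    Null G φ := by
  obtain ⟨p, q, hpq⟩ := TV.exists_null G
  rcases isEmpty_or_nonempty (Fin G.plumbings.length) with he | hne
  · exact hpq Γ φ (fun _ => .inl true) fun j i k => isEmptyElim (k 0)
  · obtain ⟨μ, h0, h1, hμ⟩ := exists_uniform (fun k => φ (loop G k (p k) (q k)))
      (h _ _ · fun k => ⟨k, p k, q k, rfl⟩)
    refine null_core G Γ X hst φ hpq μ h0 h1 fun j i k _ _ _ _ _ => ?_
    have e1 : ∀ l, move μ (lab G (fun k => φ (loop G k (p k) (q k))) (k l).1 (k l).2) < 2 / 3 := by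
      intro l
      unfold lab
      split_ifs
      · rw [move_inv]
        exact hμ _
      · exact hμ _
    rw [Fin.sum_univ_three]
    have e2 := e1 0
    have e3 := e1 1
    have e4 := e1 2
    linarith

omit hst in
/-- The displacement of the square of a unit vector. -/
theorem move_sq_le {ξ : X → ℝ} (h1 : HasSum (fun x => ξ x ^ 2) 1) (g : Γ) :
    0 ≤ 2 - 2 * ∑' x, ξ x * ξ (g • x) ∧ 0 ≤ 2 + 2 * ∑' x, ξ x * ξ (g • x) ∧
    move (fun x => ξ x ^ 2) g ≤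
      √(2 - 2 * ∑' x, ξ x * ξ (g • x)) * √(2 + 2 * ∑' x, ξ x * ξ (g • x)) := by
  have hg1 : HasSum (fun x => ξ (g • x) ^ 2) 1 := hasSum_smul h1 g
  have hc : Summable fun x => ξ x * ξ (g • x) := by
    refine Summable.of_norm_bounded (g := fun x => ξ x ^ 2 + ξ (g • x) ^ 2)
      (h1.summable.add hg1.summable) fun x => ?_
    rw [Real.norm_eq_abs, abs_le]
    constructor <;> nlinarith [sq_nonneg (ξ x + ξ (g • x)), sq_nonneg (ξ x - ξ (g • x)),
      sq_nonneg (ξ x), sq_nonneg (ξ (g • x))]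
  obtain ⟨c, hc'⟩ : ∃ c, HasSum (fun x => ξ x * ξ (g • x)) c := hc
  rw [hc'.tsum_eq]
  have hminus : HasSum (fun x => (ξ x - ξ (g • x)) ^ 2) (2 - 2 * c) := by
    have e1 : (fun x => (ξ x - ξ (g • x)) ^ 2) =
        fun x => ξ x ^ 2 + ξ (g • x) ^ 2 - 2 * (ξ x * ξ (g • x)) := by
      funext x
      ring
    rw [e1, show 2 - 2 * c = 1 + 1 - 2 * c by ring]
    exact (h1.add hg1).sub (hc'.mul_left 2)
  have hplus : HasSum (fun x => (ξ x + ξ (g • x)) ^ 2) (2 + 2 * c) := by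
    have e1 : (fun x => (ξ x + ξ (g • x)) ^ 2) =
        fun x => ξ x ^ 2 + ξ (g • x) ^ 2 + 2 * (ξ x * ξ (g • x)) := by
      funext x
      ring
    rw [e1, show 2 + 2 * c = 1 + 1 + 2 * c by ring]
    exact (h1.add hg1).add (hc'.mul_left 2)
  have e4 : 0 ≤ 2 - 2 * c := hminus.nonneg fun x => sq_nonneg _
  have e5 : 0 ≤ 2 + 2 * c := hplus.nonneg fun x => sq_nonneg _
  refine ⟨e4, e5, ?_⟩
  rw [← Real.sqrt_mul e4]
  refine (summable_move h1 g).tsum_le_of_sum_le fun A => ?_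
  refine Real.le_sqrt_of_sq_le ?_
  have h2 : ∀ x ∈ A, |ξ x ^ 2 - ξ (g • x) ^ 2| = |ξ x - ξ (g • x)| * |ξ x + ξ (g • x)| := by
    intro x _
    rw [← abs_mul]
    congr 1
    ring
  rw [Finset.sum_congr rfl h2]
  refine (Finset.sum_mul_sq_le_sq_mul_sq A _ _).trans ?_
  simp only [sq_abs]
  have e1 := sum_le_hasSum A (fun x _ => sq_nonneg (ξ x - ξ (g • x))) hminus
  have e2 := sum_le_hasSum A (fun x _ => sq_nonneg (ξ x + ξ (g • x))) hplus
  have e3 : 0 ≤ ∑ x ∈ A, (ξ x + ξ (g • x)) ^ 2 := Finset.sum_nonneg fun x _ => sq_nonneg _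
  exact mul_le_mul e1 e2 e3 e4

/-- The spectral criterion. -/
theorem null_of_spectral (h : ∀ (n : ℕ) (g : Fin n → Γ) (p : Fin n → ℝ),
    (∀ i, g i ∈ values G φ) → (∀ i, 0 ≤ p i) → ∑ i, p i = 1 →
    ∃ ξ : X → ℝ, HasSum (fun x => ξ x ^ 2) 1 ∧
      2 * √2 / 3 < ∑ i, p i * ∑' x, ξ x * ξ (g i • x)) : Null G φ := by
  refine null_of_cheeger G Γ X hst φ fun n g p hg hp hp1 => ?_
  obtain ⟨ξ, h1, hξ⟩ := h n g p hg hp hp1
  refine ⟨fun x => ξ x ^ 2, fun x => sq_nonneg _, h1, ?_⟩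
  have h2 := fun i => move_sq_le Γ X h1 (g i)
  generalize hc : (fun i => ∑' x, ξ x * ξ (g i • x)) = c at h2 hξ
  have hc' : ∀ i, ∑' x, ξ x * ξ (g i • x) = c i := fun i => congrFun hc i
  simp only [hc'] at h2 hξ
  have h3 : ∑ i, p i * move (fun x => ξ x ^ 2) (g i) ≤
      ∑ i, (√(p i) * √(2 - 2 * c i)) * (√(p i) * √(2 + 2 * c i)) := by
    refine Finset.sum_le_sum fun i _ => ?_
    have e1 := mul_le_mul_of_nonneg_left (h2 i).2.2 (hp i)
    have e2 : (√(p i) * √(2 - 2 * c i)) * (√(p i) * √(2 + 2 * c i)) =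
        p i * (√(2 - 2 * c i) * √(2 + 2 * c i)) := by
      have e3 := Real.mul_self_sqrt (hp i)
      calc (√(p i) * √(2 - 2 * c i)) * (√(p i) * √(2 + 2 * c i)) =
          (√(p i) * √(p i)) * (√(2 - 2 * c i) * √(2 + 2 * c i)) := by ring
        _ = _ := by rw [e3]
    rw [e2]
    exact e1
  refine lt_of_le_of_lt h3 ?_
  refine lt_of_pow_lt_pow_left₀ 2 (by norm_num) ?_
  refine lt_of_le_of_lt (Finset.sum_mul_sq_le_sq_mul_sq Finset.univ _ _) ?_
  have e1 : ∀ i, (√(p i) * √(2 - 2 * c i)) ^ 2 = p i * (2 - 2 * c i) := by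
    intro i
    rw [mul_pow, Real.sq_sqrt (hp i), Real.sq_sqrt (h2 i).1]
  have e2 : ∀ i, (√(p i) * √(2 + 2 * c i)) ^ 2 = p i * (2 + 2 * c i) := by
    intro i
    rw [mul_pow, Real.sq_sqrt (hp i), Real.sq_sqrt (h2 i).2.1]
  simp only [e1, e2]
  have e3 : ∑ i, p i * (2 - 2 * c i) = 2 - 2 * ∑ i, p i * c i := by
    have : ∀ i, p i * (2 - 2 * c i) = 2 * p i - 2 * (p i * c i) := fun i => by ring
    simp only [this]
    rw [Finset.sum_sub_distrib, ← Finset.mul_sum, ← Finset.mul_sum, hp1, mul_one]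
  have e4 : ∑ i, p i * (2 + 2 * c i) = 2 + 2 * ∑ i, p i * c i := by
    have : ∀ i, p i * (2 + 2 * c i) = 2 * p i + 2 * (p i * c i) := fun i => by ring
    simp only [this]
    rw [Finset.sum_add_distrib, ← Finset.mul_sum, ← Finset.mul_sum, hp1, mul_one]
  rw [e3, e4]
  have h8 : (2 * √2 / 3) ^ 2 = 8 / 9 := by
    rw [div_pow, mul_pow, Real.sq_sqrt (by norm_num)]
    norm_num
  have h9 : (0 : ℝ) ≤ 2 * √2 / 3 := by positivity
  nlinarith

/-- Orbits with growth rate less than two. -/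
theorem null_of_orbit (S : Set Γ) (h1 : (1 : Γ) ∈ S)
    (hS : ∀ g ∈ values G φ, g ∈ S ∧ g⁻¹ ∈ S) (x : X) (c : ℝ) (hc0 : 0 ≤ c) (hc : c < 2)
    (hn : ∀ m : ℕ, ∃ n ≥ m, ∃ B : Finset X, (∀ s ∈ S ^ n, s • x ∈ B) ∧ (B.card : ℝ) ≤ c ^ n) :
    Null G φ := by
  classical
  obtain ⟨c', hc1, hc2, hcc⟩ : ∃ c' : ℝ, 1 ≤ c' ∧ c' < 2 ∧ c ≤ c' :=
    ⟨max c 1, le_max_right _ _, max_lt hc (by norm_num), le_max_left _ _⟩
  have hc'0 : 0 < c' := by linarith
  obtain ⟨θ, hθ1, hθ2⟩ : ∃ θ : ℝ, 1 / 2 < θ ∧ θ * c' < 1 := by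
    refine ⟨(1 / 2 + 1 / c') / 2, ?_, ?_⟩
    · have : 1 / 2 < 1 / c' := one_div_lt_one_div_of_lt hc'0 hc2
      linarith
    · have h2 : 1 / c' * c' = 1 := by
        rw [one_div, inv_mul_cancel₀ hc'0.ne']
      nlinarith
  have hθ0 : 0 < θ := by linarith
  obtain ⟨m, hm⟩ := exists_pow_lt_of_lt_one
    (show (0 : ℝ) < (2 * θ - 1) / (1 + θ) from div_pos (by linarith) (by linarith)) hθ2
  obtain ⟨n, hnm, B, hB, hcard⟩ := hn (m + 1)
  have hn0 : n ≠ 0 := by omega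
  have hsmall : (1 + θ) * (θ ^ n * (B.card : ℝ)) < 2 * θ - 1 := by
    have h2 : θ ^ n * (B.card : ℝ) ≤ (θ * c') ^ n := by
      rw [mul_pow]
      refine mul_le_mul_of_nonneg_left (hcard.trans ?_) (pow_pos hθ0 n).le
      exact pow_le_pow_left₀ hc0 hcc n
    have h3 : (θ * c') ^ n ≤ (θ * c') ^ m :=
      pow_le_pow_of_le_one (mul_pos hθ0 hc'0).le hθ2.le (by omega)
    have h4 := lt_of_le_of_lt (h2.trans h3) hm
    rw [lt_div_iff₀ (by linarith)] at h4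
    linarith
  have hpow : ∀ {a b : ℕ}, a ≤ b → S ^ a ⊆ S ^ b := fun h => Set.pow_subset_pow_right h1 h
  obtain ⟨μ, hμ0, hμ1, hμ⟩ := exists_measure_of_balls
    (fun r => B.filter fun y => ∃ s ∈ S ^ r, s • x = y) θ hθ1 n hn0
    (by
      refine ⟨x, Finset.mem_filter.2 ⟨?_, 1, by simp, one_smul _ x⟩⟩
      have := hB 1 (hpow (Nat.zero_le n) (by simp))
      rwa [one_smul] at this)
    (by
      refine lt_of_le_of_lt ?_ hsmall
      refine mul_le_mul_of_nonneg_left (mul_le_mul_of_nonneg_left ?_ (pow_pos hθ0 n).le)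
        (by linarith)
      exact_mod_cast Finset.card_filter_le _ _)
    (values G φ)
    (by
      intro r hr y hy
      obtain ⟨h2, s, hs, h3⟩ := Finset.mem_filter.1 hy
      exact Finset.mem_filter.2 ⟨h2, s, hpow (Nat.le_succ r) hs, h3⟩)
    (by
      intro r hr g hg y hy
      obtain ⟨h2, s, hs, rfl⟩ := Finset.mem_filter.1 hy
      have key : ∀ a ∈ S, a • s • x ∈ B.filter fun y => ∃ s ∈ S ^ (r + 1), s • x = y := by
        intro a ha
        have h3 : a * s ∈ S ^ (r + 1) := by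
          rw [pow_succ']
          exact Set.mul_mem_mul ha hs
        refine Finset.mem_filter.2 ⟨?_, a * s, h3, mul_smul _ _ _⟩
        rw [← mul_smul]
        exact hB _ (hpow (by omega) h3)
      exact ⟨key _ (hS g hg).1, key _ (hS g hg).2⟩)
  exact null_of_uniform G Γ X hst φ μ hμ0 hμ1 hμ

end

end Vale.Agent.P215.AI
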