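import Vale.Agent.P215.AI.Region
import Vale.Agent.P215.Am.SGAmen

/-!
# P215: actions with amenable stabilizers
-/

noncomputable section

namespace Vale.Agent.P215.AI

open Vale.Agent.P215.H788 Vale.Agent.P215.Am Vale.Agent.P215.TV Set Topology

section

variable {Γ X : Type} [Group Γ] [MulAction Γ X]

/-- Base points of the orbits. -/
theorem exists_base (Γ X : Type) [Group Γ] [MulAction Γ X] :
    ∃ (b : X → X) (τ : X → Γ), (∀ x, τ x • x = b x) ∧ ∀ (g : Γ) x, b (g • x) = b x := by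
  have h : ∀ x : X, ∃ a : Γ, a • x = (Quotient.mk (MulAction.orbitRel Γ X) x).out := by
    intro x
    exact MulAction.orbitRel_apply.1 (Quotient.mk_out (s := MulAction.orbitRel Γ X) x)
  choose τ hτ using h
  refine ⟨fun x => (Quotient.mk (MulAction.orbitRel Γ X) x).out, τ, hτ, ?_⟩
  intro g x
  have h : (Quotient.mk (MulAction.orbitRel Γ X) (g • x)) =
      Quotient.mk (MulAction.orbitRel Γ X) x :=
    Quotient.sound (MulAction.orbitRel_apply.2 ⟨g, rfl⟩)
  simp only [h]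

/-- Almost invariant finite sets for elements of an amenable stabilizer. -/
theorem exists_folner (b : X) (h : IsAmenable (MulAction.stabilizer Γ b)) (T : Finset Γ) {ε : ℝ}
    (hε : 0 < ε) : ∃ Ψ : Finset Γ, Ψ.Nonempty ∧ ∀ c ∈ T, c • b = b →
      ∀ B : Finset Γ, (∀ n ∈ B, n ∈ Ψ ∧ n * c ∉ Ψ) → (B.card : ℝ) ≤ ε * Ψ.card := by
  classical
  obtain ⟨Φ, hΦ, h1⟩ := h.right
    (T.image fun c => if hc : c • b = b then (⟨c, hc⟩ : MulAction.stabilizer Γ b) else 1) hε
  refine ⟨Φ.image Subtype.val, hΦ.image _, ?_⟩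
  intro c hc hcb B hB
  have h2 : ((Φ.filter fun n => ¬ n * ⟨c, hcb⟩ ∈ Φ).card : ℝ) < ε * Φ.card := by
    convert h1 ⟨c, hcb⟩ (Finset.mem_image.2 ⟨c, hc, by rw [dif_pos hcb]⟩)
  have hcard : (Φ.image Subtype.val).card = Φ.card :=
    Finset.card_image_of_injective _ Subtype.val_injective
  rw [hcard]
  refine le_trans ?_ h2.le
  rw [Nat.cast_le]
  refine (Finset.card_le_card (t := (Φ.filter fun n => n * ⟨c, hcb⟩ ∉ Φ).image
    Subtype.val) ?_).trans Finset.card_image_le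
  intro n hn
  obtain ⟨h3, h4⟩ := hB n hn
  obtain ⟨n', hn', rfl⟩ := Finset.mem_image.1 h3
  refine Finset.mem_image.2 ⟨n', Finset.mem_filter.2 ⟨hn', fun h5 => h4 ?_⟩, rfl⟩
  exact Finset.mem_image.2 ⟨_, h5, rfl⟩

/-- A probability measure on the set gives one on the group, with almost the same
displacements. -/
theorem exists_measure (hst : ∀ x : X, IsAmenable (MulAction.stabilizer Γ x)) (μ : X → ℝ)
    (h0 : ∀ x, 0 ≤ μ x) (h1 : HasSum μ 1) {δ : ℝ} (hδ : 0 < δ) (hδ1 : δ ≤ 1) (S : Finset Γ) :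
    ∃ ν : Γ → ℝ, (∀ f, 0 ≤ ν f) ∧ HasSum ν 1 ∧
      ∀ g ∈ S, disp ν g ≤ ∑' x, |μ x - μ (g • x)| + δ := by
  classical
  obtain ⟨ε, hε, hεδ⟩ : ∃ ε : ℝ, 0 < ε ∧ 8 * ε = δ := ⟨δ / 8, by positivity, by ring⟩
  -- a finite set which carries almost all of the measure
  obtain ⟨A, hA⟩ : ∃ A : Finset X, 1 - ε < ∑ x ∈ A, μ x :=
    (h1.eventually (lt_mem_nhds (show 1 - ε < 1 by linarith))).exists
  have hA1 : ∑ x ∈ A, μ x ≤ 1 := sum_le_hasSum A (fun x _ => h0 x) h1
  generalize hZ : ∑ x ∈ A, μ x = Z at hA hA1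
  have hZ0 : 0 < Z := by linarith
  let w : X → ℝ := fun x => if x ∈ A then μ x else 0
  have hw0 : ∀ x, 0 ≤ w x := by
    intro x
    simp only [w]
    split_ifs
    · exact h0 x
    · exact le_rfl
  have hwμ : ∀ x, w x ≤ μ x := by
    intro x
    simp only [w]
    split_ifs
    · exact le_rfl
    · exact h0 x
  have hwA : ∀ x, x ∉ A → w x = 0 := fun x hx => if_neg hx
  have hwsum : HasSum w Z := by
    have h2 : HasSum w (∑ x ∈ A, w x) := hasSum_sum_of_ne_finset_zero fun x hx => hwA x hx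
    have h3 : ∑ x ∈ A, w x = Z := by
      rw [← hZ]
      exact Finset.sum_congr rfl fun x hx => if_pos hx
    rwa [h3] at h2
  have hrest : ∀ B : Finset X, ∑ x ∈ B, (μ x - w x) ≤ 1 - Z := fun B =>
    sum_le_hasSum B (fun x _ => sub_nonneg.2 (hwμ x)) (h1.sub hwsum)
  -- the displacement of `w`
  have hdis : ∀ g : Γ, ∀ B : Finset X, ∑ y ∈ B, |w y - w (g⁻¹ • y)| ≤
      ∑' x, |μ x - μ (g • x)| + 2 * ε := by
    intro g B
    have hgs : HasSum (fun x => μ (g • x)) 1 := (MulAction.toPerm g).hasSum_iff.2 h1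
    have hds : Summable fun x => |μ x - μ (g • x)| := (h1.summable.sub hgs.summable).abs
    have e1 : ∑ y ∈ B, |μ y - μ (g⁻¹ • y)| ≤ ∑' x, |μ x - μ (g • x)| := by
      have e2 : ∑ y ∈ B, |μ y - μ (g⁻¹ • y)| =
          ∑ x ∈ B.image fun y => g⁻¹ • y, |μ x - μ (g • x)| := by
        rw [Finset.sum_image fun _ _ _ _ h => MulAction.injective g⁻¹ h]
        refine Finset.sum_congr rfl fun y _ => ?_
        rw [smul_inv_smul, abs_sub_comm]
      rw [e2]
      exact hds.sum_le_tsum _ fun x _ => abs_nonneg _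
    have e3 := hrest B
    have e4 : ∑ y ∈ B, (μ (g⁻¹ • y) - w (g⁻¹ • y)) ≤ 1 - Z := by
      have e5 : ∑ y ∈ B, (μ (g⁻¹ • y) - w (g⁻¹ • y)) =
          ∑ x ∈ B.image fun y => g⁻¹ • y, (μ x - w x) := by
        rw [Finset.sum_image fun _ _ _ _ h => MulAction.injective g⁻¹ h]
      rw [e5]
      exact hrest _
    have e6 : ∑ y ∈ B, |w y - w (g⁻¹ • y)| ≤ ∑ y ∈ B, (|μ y - μ (g⁻¹ • y)| + (μ y - w y) +
        (μ (g⁻¹ • y) - w (g⁻¹ • y))) := by
      refine Finset.sum_le_sum fun y _ => ?_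
      have a1 := hwμ y
      have a2 := hwμ (g⁻¹ • y)
      have a3 := neg_abs_le (μ y - μ (g⁻¹ • y))
      have a4 := le_abs_self (μ y - μ (g⁻¹ • y))
      rw [abs_le]
      constructor <;> linarith
    rw [Finset.sum_add_distrib, Finset.sum_add_distrib] at e6
    linarith
  -- the measures on the group
  obtain ⟨b, τ, hτ, hb⟩ := exists_base Γ X
  let c : X → Γ → Γ := fun x g => τ x * g⁻¹ * (τ (g • x))⁻¹
  have hc : ∀ x g, c x g • b x = b x := by
    intro x g
    have e1 : (τ (g • x))⁻¹ • b x = g • x := by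
      rw [inv_smul_eq_iff, hτ, hb]
    simp only [c, mul_smul]
    rw [e1, inv_smul_smul, hτ]
  let T : Finset Γ := ((A ×ˢ S).image fun p => c p.1 p.2) ∪ (A ×ˢ S).image fun p => (c p.1 p.2)⁻¹
  have hT : ∀ x : X, ∃ Ψ : Finset Γ, Ψ.Nonempty ∧ ∀ c ∈ T, c • x = x →
      ∀ B : Finset Γ, (∀ n ∈ B, n ∈ Ψ ∧ n * c ∉ Ψ) → (B.card : ℝ) ≤ ε * Ψ.card :=
    fun x => exists_folner x (hst x) T hε
  choose Ψ hΨ0 hΨ using hT
  have hΨc : ∀ x, (0 : ℝ) < (Ψ x).card := fun x => Nat.cast_pos.2 (Finset.card_pos.2 (hΨ0 x))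
  let u : X → Γ → ℝ := fun x f => if f * (τ x)⁻¹ ∈ Ψ (b x) then ((Ψ (b x)).card : ℝ)⁻¹ else 0
  have hu0 : ∀ x f, 0 ≤ u x f := by
    intro x f
    simp only [u]
    split_ifs
    · exact (inv_pos.2 (hΨc _)).le
    · exact le_rfl
  have hu1 : ∀ x, HasSum (u x) 1 := by
    intro x
    have e1 : HasSum (u x) (∑ f ∈ (Ψ (b x)).image fun n => n * τ x, u x f) := by
      refine hasSum_sum_of_ne_finset_zero fun f hf => if_neg fun h => hf ?_
      exact Finset.mem_image.2 ⟨_, h, by simp⟩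
    have e2 : ∑ f ∈ (Ψ (b x)).image (fun n => n * τ x), u x f = 1 := by
      rw [Finset.sum_image fun _ _ _ _ h => mul_right_cancel h]
      have e3 : ∀ n ∈ Ψ (b x), u x (n * τ x) = ((Ψ (b x)).card : ℝ)⁻¹ := by
        intro n hn
        simp only [u, mul_inv_cancel_right]
        exact if_pos hn
      rw [Finset.sum_congr rfl e3, Finset.sum_const, nsmul_eq_mul,
        mul_inv_cancel₀ (hΨc _).ne']
    rwa [e2] at e1
  have hu2 : ∀ x ∈ A, ∀ g ∈ S, ∀ B : Finset Γ,
      ∑ f ∈ B, |u (g • x) f - u x (f * g)| ≤ 2 * ε := by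
    intro x hx g hg B
    have hcT : c x g ∈ T := Finset.mem_union_left _
      (Finset.mem_image.2 ⟨(x, g), Finset.mem_product.2 ⟨hx, hg⟩, rfl⟩)
    have hcT' : (c x g)⁻¹ ∈ T := Finset.mem_union_right _
      (Finset.mem_image.2 ⟨(x, g), Finset.mem_product.2 ⟨hx, hg⟩, rfl⟩)
    have hcb' : (c x g)⁻¹ • b x = b x := inv_smul_eq_iff.2 (hc x g).symm
    have hn : ∀ f : Γ, f * (τ (g • x))⁻¹ = f * g * (τ x)⁻¹ * c x g := by
      intro f
      simp only [c]
      group
    have e1 : ∀ f, |u (g • x) f - u x (f * g)| ≤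
        (if f * g * (τ x)⁻¹ ∈ Ψ (b x) ∧ f * g * (τ x)⁻¹ * c x g ∉ Ψ (b x)
          then ((Ψ (b x)).card : ℝ)⁻¹ else 0) +
        (if f * g * (τ x)⁻¹ * c x g ∈ Ψ (b x) ∧
          f * g * (τ x)⁻¹ * c x g * (c x g)⁻¹ ∉ Ψ (b x)
          then ((Ψ (b x)).card : ℝ)⁻¹ else 0) := by
      intro f
      have hpos := (inv_pos.2 (hΨc (b x))).le
      simp only [u, hn, hb, mul_inv_cancel_right]
      by_cases m1 : f * g * (τ x)⁻¹ * c x g ∈ Ψ (b x) <;>
        by_cases m2 : f * g * (τ x)⁻¹ ∈ Ψ (b x) <;> simp [m1, m2]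
    refine (Finset.sum_le_sum fun f _ => e1 f).trans ?_
    rw [Finset.sum_add_distrib, ← Finset.sum_filter, ← Finset.sum_filter, Finset.sum_const,
      Finset.sum_const, nsmul_eq_mul, nsmul_eq_mul]
    have k1 : ((B.filter fun f => f * g * (τ x)⁻¹ ∈ Ψ (b x) ∧
        f * g * (τ x)⁻¹ * c x g ∉ Ψ (b x)).card : ℝ) ≤ ε * (Ψ (b x)).card := by
      have := hΨ (b x) (c x g) hcT (hc x g)
        ((B.filter fun f => f * g * (τ x)⁻¹ ∈ Ψ (b x) ∧
          f * g * (τ x)⁻¹ * c x g ∉ Ψ (b x)).image fun f => f * g * (τ x)⁻¹) (by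
          intro n hn'
          obtain ⟨f, hf, rfl⟩ := Finset.mem_image.1 hn'
          exact (Finset.mem_filter.1 hf).2)
      rwa [Finset.card_image_of_injective _ fun f f' h => by
        simpa using h] at this
    have k2 : ((B.filter fun f => f * g * (τ x)⁻¹ * c x g ∈ Ψ (b x) ∧
        f * g * (τ x)⁻¹ * c x g * (c x g)⁻¹ ∉ Ψ (b x)).card : ℝ) ≤ ε * (Ψ (b x)).card := by
      have := hΨ (b x) (c x g)⁻¹ hcT' hcb'
        ((B.filter fun f => f * g * (τ x)⁻¹ * c x g ∈ Ψ (b x) ∧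
          f * g * (τ x)⁻¹ * c x g * (c x g)⁻¹ ∉ Ψ (b x)).image
            fun f => f * g * (τ x)⁻¹ * c x g) (by
          intro n hn'
          obtain ⟨f, hf, rfl⟩ := Finset.mem_image.1 hn'
          exact (Finset.mem_filter.1 hf).2)
      rwa [Finset.card_image_of_injective _ fun f f' h => by
        simpa using h] at this
    have hpos := hΨc (b x)
    have k3 := mul_le_mul_of_nonneg_right k1 (inv_pos.2 hpos).le
    have k4 := mul_le_mul_of_nonneg_right k2 (inv_pos.2 hpos).le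
    have k5 : ε * ((Ψ (b x)).card : ℝ) * ((Ψ (b x)).card : ℝ)⁻¹ = ε := by
      rw [mul_assoc, mul_inv_cancel₀ hpos.ne', mul_one]
    rw [k5] at k3 k4
    linarith
  -- the measure
  let ν : Γ → ℝ := fun f => ∑ x ∈ A, w x / Z * u x f
  have ha0 : ∀ x, 0 ≤ w x / Z := fun x => div_nonneg (hw0 x) hZ0.le
  have hasum : ∑ x ∈ A, w x / Z = 1 := by
    rw [← Finset.sum_div]
    have h3 : ∑ x ∈ A, w x = Z := by
      rw [← hZ]
      exact Finset.sum_congr rfl fun x hx => if_pos hx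
    rw [h3, div_self hZ0.ne']
  have hν1 : HasSum ν 1 := by
    have e1 : HasSum ν (∑ x ∈ A, w x / Z * 1) :=
      hasSum_sum fun x _ => (hu1 x).mul_left (w x / Z)
    simpa only [mul_one, hasum] using e1
  refine ⟨ν, fun f => Finset.sum_nonneg fun x _ => mul_nonneg (ha0 x) (hu0 x f), hν1, ?_⟩
  intro g hg
  have hbound : ∀ B : Finset Γ, ∑ f ∈ B, |ν f - ν (f * g)| ≤
      2 * ε + (∑' x, |μ x - μ (g • x)| + 2 * ε) / Z := by
    intro B
    -- the intermediate function
    let ρ : Γ → ℝ := fun f => ∑ x ∈ A, w x / Z * u (g • x) f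
    have b1 : ∑ f ∈ B, |ρ f - ν (f * g)| ≤ 2 * ε := by
      have c1 : ∀ f ∈ B, |ρ f - ν (f * g)| ≤
          ∑ x ∈ A, w x / Z * |u (g • x) f - u x (f * g)| := by
        intro f _
        have c2 : ρ f - ν (f * g) = ∑ x ∈ A, w x / Z * (u (g • x) f - u x (f * g)) := by
          simp only [ρ, ν, ← Finset.sum_sub_distrib, mul_sub]
        rw [c2]
        refine (Finset.abs_sum_le_sum_abs _ _).trans (Finset.sum_le_sum fun x _ => ?_)
        rw [abs_mul, abs_of_nonneg (ha0 x)]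
      refine (Finset.sum_le_sum c1).trans ?_
      rw [Finset.sum_comm]
      have c3 : ∀ x ∈ A, ∑ f ∈ B, w x / Z * |u (g • x) f - u x (f * g)| ≤
          w x / Z * (2 * ε) := by
        intro x hx
        rw [← Finset.mul_sum]
        exact mul_le_mul_of_nonneg_left (hu2 x hx g hg B) (ha0 x)
      refine (Finset.sum_le_sum c3).trans ?_
      rw [← Finset.sum_mul, hasum, one_mul]
    have b2 : ∑ f ∈ B, |ν f - ρ f| ≤ (∑' x, |μ x - μ (g • x)| + 2 * ε) / Z := by
      have c1 : ∀ f, ν f = ∑ y ∈ A ∪ A.image (fun x => g • x), w y / Z * u y f := by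
        intro f
        refine Finset.sum_subset Finset.subset_union_left fun y _ hy => ?_
        rw [hwA y hy, zero_div, zero_mul]
      have c2 : ∀ f, ρ f = ∑ y ∈ A ∪ A.image (fun x => g • x), w (g⁻¹ • y) / Z * u y f := by
        intro f
        rw [← Finset.sum_subset (s₁ := A.image fun x => g • x) Finset.subset_union_right]
        · rw [Finset.sum_image fun _ _ _ _ h => MulAction.injective g h]
          refine Finset.sum_congr rfl fun x _ => ?_
          rw [inv_smul_smul]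
        · intro y _ hy
          rw [hwA (g⁻¹ • y) fun h => hy (Finset.mem_image.2 ⟨_, h, smul_inv_smul g y⟩), zero_div,
            zero_mul]
      have c3 : ∀ f ∈ B, |ν f - ρ f| ≤
          ∑ y ∈ A ∪ A.image (fun x => g • x), |w y - w (g⁻¹ • y)| / Z * u y f := by
        intro f _
        have c4 : ν f - ρ f =
            ∑ y ∈ A ∪ A.image (fun x => g • x), (w y - w (g⁻¹ • y)) / Z * u y f := by
          rw [c1, c2, ← Finset.sum_sub_distrib]
          refine Finset.sum_congr rfl fun y _ => ?_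
          ring
        rw [c4]
        refine (Finset.abs_sum_le_sum_abs _ _).trans (Finset.sum_le_sum fun y _ => ?_)
        rw [abs_mul, abs_div, abs_of_pos hZ0, abs_of_nonneg (hu0 y f)]
      refine (Finset.sum_le_sum c3).trans ?_
      rw [Finset.sum_comm]
      have c5 : ∀ y ∈ A ∪ A.image (fun x => g • x),
          ∑ f ∈ B, |w y - w (g⁻¹ • y)| / Z * u y f ≤ |w y - w (g⁻¹ • y)| / Z := by
        intro y _
        rw [← Finset.mul_sum]
        have c6 : ∑ f ∈ B, u y f ≤ 1 := sum_le_hasSum B (fun f _ => hu0 y f) (hu1 y)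
        exact mul_le_of_le_one_right (div_nonneg (abs_nonneg _) hZ0.le) c6
      refine (Finset.sum_le_sum c5).trans ?_
      rw [← Finset.sum_div]
      exact div_le_div_of_nonneg_right (hdis g _) hZ0.le
    have b3 : ∀ f ∈ B, |ν f - ν (f * g)| ≤ |ν f - ρ f| + |ρ f - ν (f * g)| := fun f _ =>
      abs_sub_le _ _ _
    refine (Finset.sum_le_sum b3).trans ?_
    rw [Finset.sum_add_distrib]
    linarith
  have hsum : Summable fun f => |ν f - ν (f * g)| :=
    summable_of_sum_le (fun f => abs_nonneg _) hbound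
  refine (hsum.tsum_le_of_sum_le hbound).trans ?_
  have hgs : HasSum (fun x => μ (g • x)) 1 := (MulAction.toPerm g).hasSum_iff.2 h1
  have hds : Summable fun x => |μ x - μ (g • x)| := (h1.summable.sub hgs.summable).abs
  have hD : ∑' x, |μ x - μ (g • x)| ≤ 2 := by
    refine hds.tsum_le_of_sum_le fun B => ?_
    have e1 := sum_le_hasSum B (fun x _ => h0 x) h1
    have e2 := sum_le_hasSum B (fun x _ => h0 (g • x)) hgs
    have e3 : ∑ x ∈ B, |μ x - μ (g • x)| ≤ ∑ x ∈ B, (μ x + μ (g • x)) := by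
      refine Finset.sum_le_sum fun x _ => ?_
      have a1 := h0 x
      have a2 := h0 (g • x)
      rw [abs_le]
      constructor <;> linarith
    rw [Finset.sum_add_distrib] at e3
    linarith
  have e1 : (∑' x, |μ x - μ (g • x)| + 2 * ε) / Z ≤ ∑' x, |μ x - μ (g • x)| + 6 * ε := by
    rw [div_le_iff₀ hZ0]
    have hD0 : 0 ≤ ∑' x, |μ x - μ (g • x)| := tsum_nonneg fun x => abs_nonneg _
    nlinarith
  linarith

end

end Vale.Agent.P215.AI
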