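import Vale.Agent.P215.AI.Lift

/-!
# P215: double points which move a probability measure only a little
-/

noncomputable section

namespace Vale.Agent.P215.AI

open Vale.Agent.P215.H788 Vale.Agent.P215.Am Vale.Agent.P215.TV Set Topology

/-- The labels of the cap `c`: the values of `φ` on the loops which leave the base point to the
side on `c` of a double point, and come back from its other side.  They are the values on the double
point loops `loop G k p q` or their inverses. -/
def labelsOn (G : CappedGrope) {Γ : Type} [Group Γ]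
    (φ : FundamentalGroup G.Thickening G.basePt →* Γ) (c : Tip) : Set Γ :=
  {g | ∃ k s p q, tipOf G k s = c ∧
    (if s then (φ (loop G k p q))⁻¹ else φ (loop G k p q)) = g}

/-- The displacement of the function `μ` by the group element `g`, in the norm of `ℓ¹`. -/
def move {Γ X : Type} [Group Γ] [MulAction Γ X] (μ : X → ℝ) (g : Γ) : ℝ :=
  ∑' x, |μ x - μ (g • x)|

theorem move_inv {Γ X : Type} [Group Γ] [MulAction Γ X] (μ : X → ℝ) (g : Γ) :
    move μ g⁻¹ = move μ g := by
  have h := (MulAction.toPerm g : Equiv.Perm X).tsum_eq fun x => |μ x - μ (g⁻¹ • x)|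
  unfold move
  rw [← h]
  refine tsum_congr fun x => ?_
  rw [MulAction.toPerm_apply, inv_smul_smul, abs_sub_comm]

/-- The core: the condition is only needed for chosen double point loops. -/
theorem null_core (G : CappedGrope) (Γ X : Type) [Group Γ] [MulAction Γ X]
    (hst : ∀ x : X, IsAmenable (MulAction.stabilizer Γ x))
    (φ : FundamentalGroup G.Thickening G.basePt →* Γ)
    {p : ∀ k, Path (base0 G) (sheet G k false)} {q : ∀ k, Path (sheet G k true) (base0 G)}
    (hpq : ∀ (Γ : Type) [Group Γ] (φ : FundamentalGroup G.Thickening G.basePt →* Γ)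
      (κ : Fin G.plumbings.length → Bool ⊕ Finset Γ),
      Tame G (fun k => φ (loop G k (p k) (q k))) κ → Null G φ) (μ : X → ℝ) (h0 : ∀ x, 0 ≤ μ x)
    (h1 : HasSum μ 1)
    (h : ∀ (j i : ℕ) (k : Fin 3 → Fin G.plumbings.length × Bool),
      tipOf G (k 0).1 (k 0).2 = (0, j, true) → tipOf G (k 1).1 (k 1).2 = (j + 1, i, false) →
      tipOf G (k 2).1 (k 2).2 = (j + 1, i, true) →
      (∀ l, lab G (fun k => φ (loop G k (p k) (q k))) (k l).1 (k l).2 ≠ 1) →
      (Function.Injective fun l => lab G (fun k => φ (loop G k (p k) (q k))) (k l).1 (k l).2) →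
      ∑ l, move μ (lab G (fun k => φ (loop G k (p k) (q k))) (k l).1 (k l).2) < 2) :
    Null G φ := by
  classical
  let v : Fin G.plumbings.length × Bool → Γ := fun k =>
    lab G (fun k => φ (loop G k (p k) (q k))) k.1 k.2
  obtain ⟨δ, hδ, hδ1, hgap⟩ := exists_gap (ι := Fin 3 → Fin G.plumbings.length × Bool)
    (fun k => (∃ j i : ℕ, tipOf G (k 0).1 (k 0).2 = (0, j, true) ∧
      tipOf G (k 1).1 (k 1).2 = (j + 1, i, false) ∧ tipOf G (k 2).1 (k 2).2 = (j + 1, i, true)) ∧
      (∀ l, v (k l) ≠ 1) ∧ Function.Injective fun l => v (k l))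
    (fun k => ∑ l, move μ (v (k l))) (c := 2) (by
      rintro k ⟨⟨j, i, h2, h3, h4⟩, h5, h6⟩
      exact h j i k h2 h3 h4 h5 h6)
  obtain ⟨ν, hν0, hν1, hν⟩ := exists_measure hst μ h0 h1 (δ := δ / 9) (by positivity)
    (by linarith) (Finset.univ.image v)
  obtain ⟨F, hF0, hF⟩ := exists_set_of_measure ν hν0 hν1 (ε := δ / 9) (by positivity)
    (by linarith) (Finset.univ.image v)
  obtain ⟨D, hD⟩ := hpq (Γ × Multiplicative ℤ) (φ.prod 1) (fun _ => .inr F) (by
    intro j i k b h2 h3 h4
    have e2 : ∀ l, lab G (fun k => (φ.prod 1) (loop G k (p k) (q k))) (k l) (b l) =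
        (v (k l, b l), (1 : Multiplicative ℤ)) := by
      intro l
      simp only [v, lab]
      cases b l
      · rfl
      · exact Prod.ext rfl inv_one
    by_cases h5 : ∀ l, v (k l, b l) ≠ 1
    swap
    · push Not at h5
      obtain ⟨l, hl⟩ := h5
      refine Or.inr (Or.inl ⟨l, ?_⟩)
      simp only [e2, hl]
      rfl
    by_cases h6 : Function.Injective fun l => v (k l, b l)
    swap
    · rw [Function.Injective] at h6
      push Not at h6
      obtain ⟨l, l', hl, hll⟩ := h6
      refine Or.inr (Or.inr (Or.inl ⟨l, l', hll, ?_⟩))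
      simp only [e2]
      exact Prod.ext hl rfl
    refine Or.inr (Or.inr (Or.inr ⟨F, hF0, ?_⟩))
    have e1 := hgap (fun l => (k l, b l)) ⟨⟨j, i, h2, h3, h4⟩, h5, h6⟩
    have e3 : ∀ l, kindOf G (fun _ => (.inr F : Bool ⊕ Finset (Γ × Multiplicative ℤ)))
        (k l) (b l) = .inr F := fun l => kind_inr rfl _
    have e4 : ∀ l, (1 - (move μ (v (k l, b l)) + δ / 9) / 2 - δ / 9) * (F.card : ℝ) ≤
        (overlap F (v (k l, b l), (1 : Multiplicative ℤ)) : ℝ) := by
      intro l
      have hm : v (k l, b l) ∈ Finset.univ.image v :=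
        Finset.mem_image.2 ⟨_, Finset.mem_univ _, rfl⟩
      refine le_trans (mul_le_mul_of_nonneg_right ?_ (Nat.cast_nonneg _)) (hF _ hm)
      have e5 : disp ν (v (k l, b l)) ≤ move μ (v (k l, b l)) + δ / 9 := hν _ hm
      linarith
    simp only [e2, e3, if_true]
    have e5 : (2 * F.card : ℝ) ≤
        ∑ l, (overlap F (v (k l, b l), (1 : Multiplicative ℤ)) : ℝ) := by
      refine le_trans ?_ (Finset.sum_le_sum fun l _ => e4 l)
      rw [← Finset.sum_mul]
      refine mul_le_mul_of_nonneg_right ?_ (Nat.cast_nonneg _)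
      rw [Fin.sum_univ_three] at e1 ⊢
      linarith
    exact_mod_cast e5)
  exact ⟨D, fun k c l => congrArg Prod.fst (hD k c l)⟩

/-- **Null capped gropes from almost invariant probability measures.** -/
theorem null_of_action (G : CappedGrope) (Γ X : Type) [Group Γ] [MulAction Γ X]
    (hst : ∀ x : X, IsAmenable (MulAction.stabilizer Γ x))
    (φ : FundamentalGroup G.Thickening G.basePt →* Γ) (μ : X → ℝ) (h0 : ∀ x, 0 ≤ μ x)
    (h1 : HasSum μ 1)
    (h : ∀ (j i : ℕ) (g : Fin 3 → Γ), g 0 ∈ labelsOn G φ (0, j, true) →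
      g 1 ∈ labelsOn G φ (j + 1, i, false) → g 2 ∈ labelsOn G φ (j + 1, i, true) →
      (∀ l, g l ≠ 1) → Function.Injective g → ∑ l, move μ (g l) < 2) : Null G φ := by
  obtain ⟨p, q, hpq⟩ := TV.exists_null G
  have hv : ∀ k : Fin G.plumbings.length × Bool,
      lab G (fun k => φ (loop G k (p k) (q k))) k.1 k.2 ∈ labelsOn G φ (tipOf G k.1 k.2) :=
    fun k => ⟨k.1, k.2, p _, q _, rfl, rfl⟩
  refine null_core G Γ X hst φ hpq μ h0 h1 fun j i k h2 h3 h4 h5 h6 => ?_
  refine h j i (fun l => lab G (fun k => φ (loop G k (p k) (q k))) (k l).1 (k l).2) ?_ ?_ ?_ h5 h6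
  · rw [← h2]
    exact hv _
  · rw [← h3]
    exact hv _
  · rw [← h4]
    exact hv _

end Vale.Agent.P215.AI
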