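import Vale.Agent.P215.AI.Main

/-!
# P215: a minimax theorem, and the spectral radius
-/

noncomputable section

namespace Vale.Agent.P215.AI

open Vale.Agent.P215.H788 Vale.Agent.P215.Am Vale.Agent.P215.TV Set Topology

/-- A minimax theorem: a convex set of vectors, closed under going down, which comes above the level
`r` for each probability vector contains a vector above the level `r` in all coordinates. -/
theorem exists_above {ι : Type} [Fintype ι] (C : Set (ι → ℝ)) (hC : Convex ℝ C)
    (hne : C.Nonempty) (r : ℝ)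
    (h : ∀ p : ι → ℝ, (∀ i, 0 ≤ p i) → ∑ i, p i = 1 → ∃ v ∈ C, r < ∑ i, p i * v i) :
    ∃ v ∈ C, ∀ i, r < v i := by
  classical
  by_contra hcon
  have hdisj : Disjoint {v : ι → ℝ | ∀ i, r < v i} C := by
    rw [Set.disjoint_left]
    intro v hv hvC
    exact hcon ⟨v, hvC, hv⟩
  have hO : IsOpen {v : ι → ℝ | ∀ i, r < v i} := by
    have : {v : ι → ℝ | ∀ i, r < v i} = ⋂ i, {v | r < v i} := by
      ext v
      simp
    rw [this]
    exact isOpen_iInter_of_finite fun i => isOpen_lt continuous_const (continuous_apply i)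
  have hOc : Convex ℝ {v : ι → ℝ | ∀ i, r < v i} := by
    intro v hv w hw a b ha hb hab i
    simp only [Pi.add_apply, Pi.smul_apply, smul_eq_mul]
    have h1 : r < v i := hv i
    have h2 : r < w i := hw i
    rcases ha.eq_or_lt with rfl | ha'
    · have : b = 1 := by linarith
      subst this
      linarith
    · calc r = a * r + b * r := by rw [← add_mul, hab, one_mul]
        _ < a * v i + b * w i := add_lt_add_of_lt_of_le (mul_lt_mul_of_pos_left h1 ha')
            (mul_le_mul_of_nonneg_left h2.le hb)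
  obtain ⟨f, u, hf1, hf2⟩ := geometric_hahn_banach_open hOc hO hC hdisj
  -- the coefficients
  let a : ι → ℝ := fun i => f (Pi.single i 1)
  have hfa : ∀ v : ι → ℝ, f v = ∑ i, v i * a i := by
    intro v
    have h1 : v = ∑ i, v i • (Pi.single i (1 : ℝ) : ι → ℝ) := by
      ext j
      simp [Finset.sum_apply, Pi.single_apply]
    conv_lhs => rw [h1]
    rw [map_sum]
    refine Finset.sum_congr rfl fun i _ => ?_
    rw [map_smul, smul_eq_mul]
  have ha : ∀ i, a i ≤ 0 := by
    intro i
    by_contra hi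
    push Not at hi
    obtain ⟨t, ht⟩ := exists_gt ((u - f (fun _ => r + 1)) / a i)
    have ht' : u - f (fun _ => r + 1) < |t| * a i := by
      rw [div_lt_iff₀ hi] at ht
      nlinarith [le_abs_self t]
    have h1 := hf1 ((fun _ => r + 1) + |t| • (Pi.single i (1 : ℝ) : ι → ℝ)) (by
      intro j
      simp only [Pi.add_apply, Pi.smul_apply, smul_eq_mul]
      by_cases hj : j = i
      · subst hj
        simp only [Pi.single_eq_same]
        nlinarith [abs_nonneg t]
      · simp only [Pi.single_eq_of_ne hj]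
        linarith)
    rw [map_add, map_smul, smul_eq_mul] at h1
    have h2 : f (Pi.single i 1) = a i := rfl
    rw [h2] at h1
    linarith
  have hr : ∀ ε > 0, (r + ε) * ∑ i, a i < u := by
    intro ε hε
    have h1 := hf1 (fun _ => r + ε) fun i => by linarith
    rw [hfa] at h1
    rwa [Finset.mul_sum]
  obtain ⟨v₀, hv₀⟩ := hne
  have hs : ∑ i, a i < 0 := by
    rcases (Finset.sum_nonpos fun i (_ : i ∈ Finset.univ) => ha i).eq_or_lt with h0 | h0
    · exfalso
      have h1 : ∀ i, a i = 0 := by
        intro i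
        have := (Finset.sum_eq_zero_iff_of_nonpos fun i (_ : i ∈ Finset.univ) => ha i).1 h0 i
          (Finset.mem_univ i)
        exact this
      have h2 := hr 1 one_pos
      rw [h0, mul_zero] at h2
      have h3 := hf2 v₀ hv₀
      rw [hfa] at h3
      simp only [h1, mul_zero, Finset.sum_const_zero] at h3
      linarith
    · exact h0
  obtain ⟨v, hv, hlt⟩ := h (fun i => a i / ∑ i, a i)
    (fun i => div_nonneg_of_nonpos (ha i) hs.le) (by rw [← Finset.sum_div, div_self hs.ne])
  have h1 := hf2 v hv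
  rw [hfa] at h1
  have h2 : ∑ i, a i / (∑ i, a i) * v i = (∑ i, v i * a i) / ∑ i, a i := by
    rw [Finset.sum_div]
    refine Finset.sum_congr rfl fun i _ => ?_
    ring
  rw [h2, lt_div_iff_of_neg hs] at hlt
  -- `∑ v i * a i < r * ∑ a i ≤ u ≤ ∑ v i * a i`
  have h3 : r * ∑ i, a i ≤ u := by
    by_contra hcon'
    push Not at hcon'
    have h4 := hr ((r * ∑ i, a i - u) / (-(2 * ∑ i, a i))) (div_pos (by linarith) (by linarith))
    have h5 : (r + (r * ∑ i, a i - u) / (-(2 * ∑ i, a i))) * ∑ i, a i =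
        r * ∑ i, a i - (r * ∑ i, a i - u) / 2 := by
      have hs0 : (∑ i, a i) ≠ 0 := hs.ne
      generalize (∑ i, a i) = t at hs0
      rw [add_mul, div_mul_eq_mul_div, div_neg, mul_div_mul_right _ _ hs0]
      ring
    rw [h5] at h4
    linarith
  linarith

section

variable {Γ X : Type} [Group Γ] [MulAction Γ X]

theorem hasSum_smul {μ : X → ℝ} {a : ℝ} (h : HasSum μ a) (g : Γ) :
    HasSum (fun y => μ (g • y)) a :=
  (MulAction.toPerm g).hasSum_iff.2 h

theorem summable_move {μ : X → ℝ} {a : ℝ} (h : HasSum μ a) (g : Γ) :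
    Summable fun x => |μ x - μ (g • x)| :=
  (h.summable.sub (hasSum_smul h g).summable).abs

theorem move_nonneg (μ : X → ℝ) (g : Γ) : 0 ≤ move μ g := tsum_nonneg fun _ => abs_nonneg _

/-- The displacement is a convex function. -/
theorem move_convex {μ ν : X → ℝ} {a b s t : ℝ} (h1 : HasSum μ s) (h2 : HasSum ν t) (ha : 0 ≤ a)
    (hb : 0 ≤ b) (g : Γ) :
    move (fun x => a * μ x + b * ν x) g ≤ a * move μ g + b * move ν g := by
  have e1 := (summable_move h1 g).mul_left a
  have e2 := (summable_move h2 g).mul_left b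
  unfold move
  rw [← tsum_mul_left, ← tsum_mul_left, ← e1.tsum_add e2]
  refine (summable_move ((h1.mul_left a).add (h2.mul_left b)) g).tsum_le_tsum (fun x => ?_)
    (e1.add e2)
  have e3 : a * μ x + b * ν x - (a * μ (g • x) + b * ν (g • x)) =
      a * (μ x - μ (g • x)) + b * (ν x - ν (g • x)) := by ring
  rw [e3]
  refine (abs_add_le _ _).trans ?_
  rw [abs_mul, abs_mul, abs_of_nonneg ha, abs_of_nonneg hb]

/-- If each average of the displacements can be made less than two thirds, then all of them can be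
made less than two thirds at once. -/
theorem exists_uniform {ι : Type} [Fintype ι] [Nonempty ι] (v : ι → Γ)
    (h : ∀ p : ι → ℝ, (∀ i, 0 ≤ p i) → ∑ i, p i = 1 →
      ∃ μ : X → ℝ, (∀ x, 0 ≤ μ x) ∧ HasSum μ 1 ∧ ∑ i, p i * move μ (v i) < 2 / 3) :
    ∃ μ : X → ℝ, (∀ x, 0 ≤ μ x) ∧ HasSum μ 1 ∧ ∀ i, move μ (v i) < 2 / 3 := by
  classical
  obtain ⟨w, ⟨μ, h0, h1, hw⟩, hw'⟩ := exists_above
    {w : ι → ℝ | ∃ μ : X → ℝ, (∀ x, 0 ≤ μ x) ∧ HasSum μ 1 ∧ ∀ i, w i ≤ -move μ (v i)} (by
      rintro w ⟨μ, h0, h1, hw⟩ w' ⟨μ', h0', h1', hw'⟩ a b ha hb hab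
      refine ⟨fun x => a * μ x + b * μ' x,
        fun x => add_nonneg (mul_nonneg ha (h0 x)) (mul_nonneg hb (h0' x)), ?_, fun i => ?_⟩
      · have := (h1.mul_left a).add (h1'.mul_left b)
        rwa [mul_one, mul_one, hab] at this
      · have e1 := move_convex h1 h1' ha hb (v i)
        have e2 := mul_le_mul_of_nonneg_left (hw i) ha
        have e3 := mul_le_mul_of_nonneg_left (hw' i) hb
        simp only [Pi.add_apply, Pi.smul_apply, smul_eq_mul]
        linarith) (by
      obtain ⟨i₀⟩ := (inferInstance : Nonempty ι)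
      obtain ⟨μ, h0, h1, -⟩ := h (fun i => if i = i₀ then 1 else 0)
        (fun i => by split_ifs <;> norm_num) (by simp)
      exact ⟨fun i => -move μ (v i), μ, h0, h1, fun i => le_rfl⟩) (-(2 / 3)) (by
      intro p hp hp1
      obtain ⟨μ, h0, h1, h2⟩ := h p hp hp1
      refine ⟨fun i => -move μ (v i), ⟨μ, h0, h1, fun i => le_rfl⟩, ?_⟩
      simp only [mul_neg, Finset.sum_neg_distrib]
      linarith)
  exact ⟨μ, h0, h1, fun i => by linarith [hw i, hw' i]⟩

end

end Vale.Agent.P215.AI
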