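import Vale.Agent.P215.AI.Minimax

/-!
# P215: orbits of growth rate less than two
-/

noncomputable section

namespace Vale.Agent.P215.AI

open Vale.Agent.P215.H788 Vale.Agent.P215.Am Vale.Agent.P215.TV Set Topology
open scoped Pointwise

section

variable {Γ X : Type} [Group Γ] [MulAction Γ X]

open Classical in
/-- The number of points of the finite set `B` which `g` keeps in `B`. -/
def stay (B : Finset X) (g : Γ) : ℕ := (B.filter fun y => g • y ∈ B).card

theorem stay_inv (B : Finset X) (g : Γ) : stay B g⁻¹ = stay B g := by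
  classical
  unfold stay
  refine Finset.card_bij (fun y _ => g⁻¹ • y) ?_ ?_ ?_
  · intro y hy
    rw [Finset.mem_filter] at hy ⊢
    rw [smul_inv_smul]
    exact ⟨hy.2, hy.1⟩
  · intro y _ z _ h
    exact MulAction.injective g⁻¹ h
  · intro y hy
    rw [Finset.mem_filter] at hy
    refine ⟨g • y, ?_, inv_smul_smul g y⟩
    rw [Finset.mem_filter, inv_smul_smul]
    exact ⟨hy.2, hy.1⟩

theorem stay_le (B : Finset X) (g : Γ) : stay B g ≤ B.card := by
  classical
  exact Finset.card_filter_le _ _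

/-- The main inequality: `B` and `B'` are consecutive balls. -/
theorem two_mul_card_le {B B' : Finset X} {g : Γ} (h0 : B ⊆ B') (h1 : ∀ y ∈ B, g • y ∈ B')
    (h2 : ∀ y ∈ B, g⁻¹ • y ∈ B') : 2 * B.card ≤ stay B g + stay B' g := by
  classical
  have h3 : (B ∪ B.image fun y => g⁻¹ • y) ⊆ B'.filter fun y => g • y ∈ B' := by
    intro y hy
    rw [Finset.mem_filter]
    rcases Finset.mem_union.1 hy with hy | hy
    · exact ⟨h0 hy, h1 y hy⟩
    · obtain ⟨z, hz, rfl⟩ := Finset.mem_image.1 hy
      exact ⟨h2 z hz, by rw [smul_inv_smul]; exact h0 hz⟩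
  have h4 : (B ∩ B.image fun y => g⁻¹ • y) ⊆ B.filter fun y => g • y ∈ B := by
    intro y hy
    rw [Finset.mem_inter] at hy
    rw [Finset.mem_filter]
    obtain ⟨z, hz, rfl⟩ := Finset.mem_image.1 hy.2
    exact ⟨hy.1, by rw [smul_inv_smul]; exact hz⟩
  have h5 := Finset.card_le_card h3
  have h6 := Finset.card_le_card h4
  have h7 := Finset.card_union_add_card_inter B (B.image fun y => g⁻¹ • y)
  have h8 : (B.image fun y => g⁻¹ • y).card = B.card :=
    Finset.card_image_of_injective _ (MulAction.injective g⁻¹)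
  have h9 : stay B g = (B.filter fun y => g • y ∈ B).card := by
    unfold stay
    congr
  have h10 : stay B' g = (B'.filter fun y => g • y ∈ B').card := by
    unfold stay
    congr
  omega

open Classical in
/-- The indicator function of a finite set. -/
def ind (B : Finset X) (y : X) : ℝ := if y ∈ B then 1 else 0

theorem ind_nonneg (B : Finset X) (y : X) : 0 ≤ ind B y := by
  unfold ind
  split_ifs <;> norm_num

theorem hasSum_ind (B : Finset X) : HasSum (ind B) B.card := by
  have h1 : HasSum (ind B) (∑ y ∈ B, ind B y) :=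
    hasSum_sum_of_ne_finset_zero fun y hy => if_neg hy
  have h3 : ∀ y ∈ B, ind B y = 1 := fun y hy => if_pos hy
  have h2 : ∑ y ∈ B, ind B y = B.card := by
    rw [Finset.sum_congr rfl h3]
    simp
  rwa [h2] at h1

theorem ind_of_mem {B : Finset X} {y : X} (h : y ∈ B) : ind B y = 1 := if_pos h

theorem ind_of_notMem {B : Finset X} {y : X} (h : y ∉ B) : ind B y = 0 := if_neg h

theorem hasSum_ind_smul (B : Finset X) (g : Γ) :
    HasSum (fun y => ind B (g • y)) B.card :=
  hasSum_smul (hasSum_ind B) g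

open Classical in
theorem card_leave (B : Finset X) (g : Γ) :
    ((B.filter fun y => g • y ∉ B).card : ℝ) = B.card - stay B g := by
  have h3 := Finset.card_filter_add_card_filter_not (s := B) fun y => g • y ∈ B
  have h4 : stay B g = (B.filter fun y => g • y ∈ B).card := by
    unfold stay
    congr
  rw [h4, ← h3]
  push_cast
  ring

open Classical in
theorem abs_ind_le (B : Finset X) (g : Γ) (y : X) :
    |ind B y - ind B (g • y)| ≤ ind (B.filter fun y => g • y ∉ B) y +
      ind (B.filter fun y => g⁻¹ • y ∉ B) (g • y) := by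
  have n1 := ind_nonneg (B.filter fun y => g • y ∉ B) y
  have n2 := ind_nonneg (B.filter fun y => g⁻¹ • y ∉ B) (g • y)
  by_cases m1 : y ∈ B
  · by_cases m2 : g • y ∈ B
    · rw [ind_of_mem m1, ind_of_mem m2, sub_self, abs_zero]
      linarith
    · rw [ind_of_mem m1, ind_of_notMem m2, sub_zero, abs_one,
        ind_of_mem (Finset.mem_filter.2 ⟨m1, m2⟩)]
      linarith
  · by_cases m2 : g • y ∈ B
    · have m3 : g • y ∈ B.filter fun y => g⁻¹ • y ∉ B :=
        Finset.mem_filter.2 ⟨m2, by rw [inv_smul_smul]; exact m1⟩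
      rw [ind_of_notMem m1, ind_of_mem m2, ind_of_mem m3, zero_sub, abs_neg, abs_one]
      linarith
    · rw [ind_of_notMem m1, ind_of_notMem m2, sub_self, abs_zero]
      linarith

/-- The displacement of the indicator function. -/
theorem sum_ind_le (B : Finset X) (g : Γ) (A : Finset X) :
    ∑ y ∈ A, |ind B y - ind B (g • y)| ≤ 2 * ((B.card : ℝ) - stay B g) := by
  classical
  refine (Finset.sum_le_sum fun y _ => abs_ind_le B g y).trans ?_
  rw [Finset.sum_add_distrib]
  have h3 := sum_le_hasSum A (fun y _ => ind_nonneg _ y)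
    (hasSum_ind (B.filter fun y => g • y ∉ B))
  have h4 := sum_le_hasSum A (fun y _ => ind_nonneg _ (g • y))
    (hasSum_ind_smul (B.filter fun y => g⁻¹ • y ∉ B) g)
  have e1 := card_leave B g
  have e2 := card_leave B g⁻¹
  rw [stay_inv] at e2
  have e3 : ((B.filter fun y => g • y ∉ B).card : ℝ) = B.card - stay B g := by
    rw [← e1]
  have e4 : ((B.filter fun y => g⁻¹ • y ∉ B).card : ℝ) = B.card - stay B g := by
    rw [← e2]
  rw [e3] at h3
  rw [e4] at h4
  refine le_trans (add_le_add ?_ ?_) (le_of_eq (two_mul _).symm)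
  · exact h3
  · exact h4

/-- The weighted sum. -/
theorem weighted (o b : ℕ → ℝ) (θ : ℝ) (hθ : 0 < θ) (M : ℕ)
    (h : ∀ n < M, 2 * b n ≤ o n + o (n + 1)) :
    2 * θ * ∑ n ∈ Finset.range M, θ ^ n * b n + o 0 ≤
      θ * ∑ n ∈ Finset.range M, θ ^ n * o n + ∑ n ∈ Finset.range (M + 1), θ ^ n * o n := by
  induction M with
  | zero => simp
  | succ M ih =>
    have ih' := ih fun n hn => h n (by omega)
    rw [Finset.sum_range_succ, Finset.sum_range_succ (fun n => θ ^ n * o n) (M + 1),
      Finset.sum_range_succ (fun n => θ ^ n * o n) M] at *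
    have h1 : θ ^ (M + 1) * (2 * b M) ≤ θ ^ (M + 1) * (o M + o (M + 1)) :=
      mul_le_mul_of_nonneg_left (h M (Nat.lt_succ_self M)) (pow_pos hθ _).le
    rw [pow_succ] at h1 ⊢
    nlinarith

/-- Balls with small growth give a probability measure with small displacements. -/
theorem exists_measure_of_balls (B : ℕ → Finset X) (θ : ℝ) (hθ : 1 / 2 < θ) (M : ℕ) (hM : M ≠ 0)
    (hB0 : (B 0).Nonempty) (hB : (1 + θ) * (θ ^ M * (B M).card) < 2 * θ - 1) (S : Set Γ)
    (hsub : ∀ n < M, B n ⊆ B (n + 1)) (hS : ∀ n < M, ∀ g ∈ S, ∀ y ∈ B n,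
      g • y ∈ B (n + 1) ∧ g⁻¹ • y ∈ B (n + 1)) :
    ∃ μ : X → ℝ, (∀ y, 0 ≤ μ y) ∧ HasSum μ 1 ∧ ∀ g ∈ S, move μ g < 2 / 3 := by
  classical
  have hθ0 : 0 < θ := by linarith
  have hb1 : (1 : ℝ) ≤ (B 0).card := by
    exact_mod_cast Finset.card_pos.2 hB0
  have hZM : (1 : ℝ) ≤ ∑ n ∈ Finset.range M, θ ^ n * ((B n).card : ℝ) := by
    have h2 := Finset.single_le_sum (f := fun n => θ ^ n * ((B n).card : ℝ))
      (s := Finset.range M) (fun n _ => by positivity) (Finset.mem_range.2 (Nat.pos_of_ne_zero hM))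
    simp only [pow_zero, one_mul] at h2
    linarith
  have hr0 : 0 ≤ θ ^ M * ((B M).card : ℝ) := by positivity
  obtain ⟨Z, hZ⟩ : ∃ Z, Z = ∑ n ∈ Finset.range (M + 1), θ ^ n * ((B n).card : ℝ) := ⟨_, rfl⟩
  have hZ' : Z = ∑ n ∈ Finset.range M, θ ^ n * ((B n).card : ℝ) +
      θ ^ M * ((B M).card : ℝ) := by rw [hZ, Finset.sum_range_succ]
  have hZ0 : 0 < Z := by linarith
  have hsum : HasSum (fun y => (∑ n ∈ Finset.range (M + 1), θ ^ n * ind (B n) y) / Z) 1 := by
    have h2 : HasSum (fun y => (∑ n ∈ Finset.range (M + 1), θ ^ n * ind (B n) y))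
        (∑ n ∈ Finset.range (M + 1), θ ^ n * ((B n).card : ℝ)) :=
      hasSum_sum fun n _ => (hasSum_ind (B n)).mul_left (θ ^ n)
    have h3 := h2.div_const Z
    rwa [← hZ, div_self hZ0.ne'] at h3
  refine ⟨fun y => (∑ n ∈ Finset.range (M + 1), θ ^ n * ind (B n) y) / Z, ?_, hsum, ?_⟩
  · intro y
    exact div_nonneg (Finset.sum_nonneg fun n _ => mul_nonneg (by positivity) (ind_nonneg _ _))
      hZ0.le
  · intro g hg
    have hbound : ∀ A : Finset X, ∑ y ∈ A,
        |(∑ n ∈ Finset.range (M + 1), θ ^ n * ind (B n) y) / Z -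
          (∑ n ∈ Finset.range (M + 1), θ ^ n * ind (B n) (g • y)) / Z| ≤
        (∑ n ∈ Finset.range (M + 1), θ ^ n * (2 * (((B n).card : ℝ) - stay (B n) g))) / Z := by
      intro A
      have h2 : ∀ y ∈ A, |(∑ n ∈ Finset.range (M + 1), θ ^ n * ind (B n) y) / Z -
          (∑ n ∈ Finset.range (M + 1), θ ^ n * ind (B n) (g • y)) / Z| ≤
          (∑ n ∈ Finset.range (M + 1), θ ^ n * |ind (B n) y - ind (B n) (g • y)|) / Z := by
        intro y _
        rw [← sub_div, abs_div, abs_of_pos hZ0, ← Finset.sum_sub_distrib]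
        refine div_le_div_of_nonneg_right ((Finset.abs_sum_le_sum_abs _ _).trans
          (Finset.sum_le_sum fun n _ => ?_)) hZ0.le
        rw [← mul_sub, abs_mul, abs_of_nonneg (pow_pos hθ0 n).le]
      refine (Finset.sum_le_sum h2).trans ?_
      rw [← Finset.sum_div, Finset.sum_comm]
      refine div_le_div_of_nonneg_right (Finset.sum_le_sum fun n _ => ?_) hZ0.le
      rw [← Finset.mul_sum]
      exact mul_le_mul_of_nonneg_left (sum_ind_le _ _ _) (pow_pos hθ0 n).le
    have hs : Summable fun y => |(∑ n ∈ Finset.range (M + 1), θ ^ n * ind (B n) y) / Z -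
          (∑ n ∈ Finset.range (M + 1), θ ^ n * ind (B n) (g • y)) / Z| :=
      summable_of_sum_le (fun y => abs_nonneg _) hbound
    refine lt_of_le_of_lt (hs.tsum_le_of_sum_le hbound) ?_
    rw [div_lt_iff₀ hZ0]
    have hw := weighted (fun n => (stay (B n) g : ℝ)) (fun n => ((B n).card : ℝ)) θ hθ0 M
      (by
        intro n hn
        have := two_mul_card_le (hsub n hn) (g := g) (fun y hy => (hS n hn g hg y hy).1)
          (fun y hy => (hS n hn g hg y hy).2)
        exact_mod_cast this)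
    have hO : ∑ n ∈ Finset.range M, θ ^ n * (stay (B n) g : ℝ) ≤
        ∑ n ∈ Finset.range (M + 1), θ ^ n * (stay (B n) g : ℝ) := by
      rw [Finset.sum_range_succ]
      have : (0 : ℝ) ≤ θ ^ M * (stay (B M) g : ℝ) := by positivity
      linarith
    have h0 : (0 : ℝ) ≤ (stay (B 0) g : ℝ) := by positivity
    have h3 : ∑ n ∈ Finset.range (M + 1), θ ^ n * (2 * (((B n).card : ℝ) - stay (B n) g)) =
        2 * Z - 2 * ∑ n ∈ Finset.range (M + 1), θ ^ n * (stay (B n) g : ℝ) := by
      rw [hZ, Finset.mul_sum, Finset.mul_sum, ← Finset.sum_sub_distrib]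
      refine Finset.sum_congr rfl fun n _ => ?_
      ring
    rw [h3]
    generalize (∑ n ∈ Finset.range M, θ ^ n * ((B n).card : ℝ)) = Z₁ at *
    generalize (∑ n ∈ Finset.range M, θ ^ n * (stay (B n) g : ℝ)) = O at *
    generalize (∑ n ∈ Finset.range (M + 1), θ ^ n * (stay (B n) g : ℝ)) = O' at *
    generalize θ ^ M * ((B M).card : ℝ) = r at *
    have e1 : 2 * θ * Z₁ ≤ (1 + θ) * O' := by nlinarith
    have e2 : (1 + θ) * r < (2 * θ - 1) * Z₁ := by nlinarith
    have e3 : (1 + θ) * (2 * Z) < (1 + θ) * (3 * O') := by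
      rw [hZ']
      nlinarith
    have e4 := lt_of_mul_lt_mul_left e3 (by linarith)
    linarith

end

end Vale.Agent.P215.AI
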