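import Vale.Agent.P215.TV.Cor

/-!
# P215: finite sets from probability measures
-/

noncomputable section

namespace Vale.Agent.P215.AI

open Vale.Agent.P215.H788 Vale.Agent.P215.Am Vale.Agent.P215.TV Set Topology

/-- Finitely many strict inequalities hold with a uniform gap. -/
theorem exists_gap {ι : Type} [Finite ι] (P : ι → Prop) (f : ι → ℝ) {c : ℝ}
    (h : ∀ i, P i → f i < c) : ∃ δ : ℝ, 0 < δ ∧ δ ≤ 1 ∧ ∀ i, P i → f i ≤ c - δ := by
  classical
  cases nonempty_fintype ι
  rcases (Finset.univ.filter P).eq_empty_or_nonempty with he | hne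
  · refine ⟨1, one_pos, le_rfl, fun i hi => ?_⟩
    have h1 : i ∈ Finset.univ.filter P := Finset.mem_filter.2 ⟨Finset.mem_univ _, hi⟩
    rw [he] at h1
    exact absurd h1 (Finset.notMem_empty _)
  · obtain ⟨i₀, hi₀, hmax⟩ := Finset.exists_max_image (Finset.univ.filter P) f hne
    refine ⟨min 1 (c - f i₀), lt_min one_pos (by linarith [h i₀ (Finset.mem_filter.1 hi₀).2]),
      min_le_left _ _, fun i hi => ?_⟩
    have h2 := hmax i (Finset.mem_filter.2 ⟨Finset.mem_univ _, hi⟩)
    have h3 := min_le_right 1 (c - f i₀)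
    linarith

section

variable {Q : Type} [Group Q]

/-- The region under the graph of a function with finite support. -/
theorem exists_region (A : Finset Q) (m : Q → ℕ) (hm : ∀ q, q ∉ A → m q = 0) :
    ∃ F : Finset (Q × Multiplicative ℤ), F.card = ∑ q ∈ A, m q ∧
      ∀ g : Q, overlap F (g, 1) = ∑ q ∈ A, min (m q) (m (q * g)) := by
  classical
  let f : (Σ _ : Q, ℕ) → Q × Multiplicative ℤ := fun x => (x.1, Multiplicative.ofAdd (x.2 : ℤ))
  have hf : Function.Injective f := by
    rintro ⟨q, i⟩ ⟨q', i'⟩ h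
    rw [Prod.mk.injEq] at h
    obtain ⟨h1, h2⟩ := h
    have h3 : (i : ℤ) = (i' : ℤ) := Multiplicative.ofAdd.injective h2
    simp only at h1
    subst h1
    have h4 : i = i' := by exact_mod_cast h3
    subst h4
    rfl
  have hmem : ∀ q i, f ⟨q, i⟩ ∈ (A.sigma fun q => Finset.range (m q)).image f ↔ i < m q := by
    intro q i
    rw [Finset.mem_image]
    constructor
    · rintro ⟨x, h1, h2⟩
      have h3 := hf h2
      subst h3
      exact Finset.mem_range.1 (Finset.mem_sigma.1 h1).2
    · intro h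
      refine ⟨⟨q, i⟩, Finset.mem_sigma.2 ⟨?_, Finset.mem_range.2 h⟩, rfl⟩
      by_contra hq
      rw [hm q hq] at h
      exact absurd h (Nat.not_lt_zero _)
  refine ⟨(A.sigma fun q => Finset.range (m q)).image f, ?_, ?_⟩
  · rw [Finset.card_image_of_injective _ hf, Finset.card_sigma]
    simp
  · intro g
    have h1 : ∑ q ∈ A, min (m q) (m (q * g)) =
        (A.sigma fun q => Finset.range (min (m q) (m (q * g)))).card := by
      rw [Finset.card_sigma]
      simp
    rw [h1, overlap_eq]
    have hmul : ∀ q i, f ⟨q, i⟩ * (g, 1) = f ⟨q * g, i⟩ := fun q i =>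
      Prod.ext rfl (mul_one _)
    refine (Finset.card_bij (fun x _ => f x) ?_ ?_ ?_).symm
    · rintro ⟨q, i⟩ h
      rw [Finset.mem_sigma, Finset.mem_range, lt_min_iff] at h
      rw [Finset.mem_filter, hmul, hmem, hmem]
      exact h.2
    · intro x _ y _ h
      exact hf h
    · intro y h
      rw [Finset.mem_filter, Finset.mem_image] at h
      obtain ⟨⟨⟨q, i⟩, h1, rfl⟩, h2⟩ := h
      rw [hmul, hmem] at h2
      refine ⟨⟨q, i⟩, ?_, rfl⟩
      rw [Finset.mem_sigma, Finset.mem_range] at h1 ⊢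
      rw [lt_min_iff]
      exact ⟨h1.1, h1.2, h2⟩

/-- The displacement of a function on a group by the right multiplication with `g`. -/
def disp (ν : Q → ℝ) (g : Q) : ℝ := ∑' f, |ν f - ν (f * g)|

/-- A probability measure gives a finite set in the product with the integers, with almost the same
displacements. -/
theorem exists_set_of_measure (μ : Q → ℝ) (h0 : ∀ q, 0 ≤ μ q) (h1 : HasSum μ 1) {ε : ℝ}
    (hε : 0 < ε) (hε1 : ε ≤ 1) (S : Finset Q) :
    ∃ F : Finset (Q × Multiplicative ℤ), F.Nonempty ∧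
      ∀ g ∈ S, (1 - disp μ g / 2 - ε) * F.card ≤ overlap F (g, 1) := by
  classical
  have hmin : ∀ g, ∑' q, min (μ q) (μ (q * g)) = 1 - disp μ g / 2 := by
    intro g
    have hs : HasSum (fun q => μ (q * g)) 1 := (Equiv.mulRight g).hasSum_iff.2 h1
    have hd : Summable fun q => |μ q - μ (q * g)| :=
      (h1.summable.sub hs.summable).abs
    have he : ∀ q, min (μ q) (μ (q * g)) = (μ q + μ (q * g) - |μ q - μ (q * g)|) / 2 := by
      intro q
      rcases le_total (μ q) (μ (q * g)) with h | h
      · rw [min_eq_left h, abs_of_nonpos (sub_nonpos.2 h)]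
        ring
      · rw [min_eq_right h, abs_of_nonneg (sub_nonneg.2 h)]
        ring
    have hsum := (((h1.add hs).sub hd.hasSum).div_const 2).tsum_eq
    simp only [he]
    rw [hsum, disp]
    ring
  -- a finite set which carries almost all of the measure
  obtain ⟨A, hA⟩ : ∃ A : Finset Q, 1 - ε / 4 < ∑ q ∈ A, μ q :=
    (h1.eventually (lt_mem_nhds (show 1 - ε / 4 < 1 by linarith))).exists
  have hA1 : ∑ q ∈ A, μ q ≤ 1 := sum_le_hasSum A (fun q _ => h0 q) h1
  -- the mass of the minimum on `A`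
  have hlow : ∀ g, 1 - disp μ g / 2 - ε / 2 ≤
      ∑ q ∈ A, min (μ q) (if q * g ∈ A then μ (q * g) else 0) := by
    intro g
    have hm : Summable fun q => min (μ q) (μ (q * g)) :=
      Summable.of_nonneg_of_le (fun q => le_min (h0 _) (h0 _)) (fun q => min_le_left _ _)
        h1.summable
    -- the complement of `A`
    have hc : ∀ B : Finset Q, ∑ q ∈ B \ A, μ q ≤ ε / 4 := by
      intro B
      have h2 : ∑ q ∈ (B \ A) ∪ A, μ q ≤ 1 := sum_le_hasSum _ (fun q _ => h0 q) h1
      rw [Finset.sum_union Finset.sdiff_disjoint] at h2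
      linarith
    have h2 : ∑' q, min (μ q) (μ (q * g)) ≤ ∑ q ∈ A, min (μ q) (μ (q * g)) + ε / 4 := by
      refine hm.tsum_le_of_sum_le fun B => ?_
      have h3 : ∑ q ∈ B, min (μ q) (μ (q * g)) ≤
          ∑ q ∈ (B \ A) ∪ A, min (μ q) (μ (q * g)) := by
        refine Finset.sum_le_sum_of_subset_of_nonneg ?_ fun q _ _ => le_min (h0 _) (h0 _)
        intro q hq
        by_cases hqA : q ∈ A
        · exact Finset.mem_union_right _ hqA
        · exact Finset.mem_union_left _ (Finset.mem_sdiff.2 ⟨hq, hqA⟩)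
      rw [Finset.sum_union Finset.sdiff_disjoint] at h3
      have h4 : ∑ q ∈ B \ A, min (μ q) (μ (q * g)) ≤ ∑ q ∈ B \ A, μ q :=
        Finset.sum_le_sum fun q _ => min_le_left _ _
      linarith [hc B]
    have h3 : ∑ q ∈ A, min (μ q) (μ (q * g)) ≤
        ∑ q ∈ A, (min (μ q) (if q * g ∈ A then μ (q * g) else 0) +
          (if q * g ∈ A then 0 else μ (q * g))) := by
      refine Finset.sum_le_sum fun q _ => ?_
      split_ifs with hq
      · rw [add_zero]
      · rw [min_eq_right (h0 q), zero_add]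
        exact min_le_right _ _
    rw [Finset.sum_add_distrib] at h3
    have h4 : ∑ q ∈ A, (if q * g ∈ A then 0 else μ (q * g)) ≤ ε / 4 := by
      have h5 : ∑ q ∈ A, (if q * g ∈ A then 0 else μ (q * g)) =
          ∑ q ∈ (A.filter fun q => q * g ∉ A).image fun q => q * g, μ q := by
        rw [Finset.sum_image fun _ _ _ _ h => mul_right_cancel h, Finset.sum_filter]
        refine Finset.sum_congr rfl fun q _ => ?_
        by_cases hq : q * g ∈ A
        · rw [if_pos hq, if_neg (not_not.2 hq)]
        · rw [if_neg hq, if_pos hq]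
      have h6 : ((A.filter fun q => q * g ∉ A).image fun q => q * g) \ A =
          (A.filter fun q => q * g ∉ A).image fun q => q * g := by
        rw [Finset.sdiff_eq_self_iff_disjoint, Finset.disjoint_left]
        intro q hq
        obtain ⟨q', hq', rfl⟩ := Finset.mem_image.1 hq
        exact (Finset.mem_filter.1 hq').2
      rw [h5, ← h6]
      exact hc _
    have h6 := hmin g
    linarith
  -- the multiplicities
  obtain ⟨N, hN⟩ := exists_nat_gt (2 * A.card / ε)
  rw [div_lt_iff₀ hε] at hN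
  have hN0 : (0 : ℝ) ≤ N := Nat.cast_nonneg _
  have hNA : 2 * (A.card : ℝ) < N := by nlinarith
  let m : Q → ℕ := fun q => if q ∈ A then ⌊(N : ℝ) * μ q⌋₊ else 0
  obtain ⟨F, hF1, hF2⟩ := exists_region A m fun q hq => if_neg hq
  have hm1 : ∀ q, (N : ℝ) * (if q ∈ A then μ q else 0) - 1 ≤ (m q : ℝ) := by
    intro q
    by_cases hq : q ∈ A
    · simp only [m, if_pos hq]
      have := Nat.sub_one_lt_floor ((N : ℝ) * μ q)
      linarith
    · simp only [m, if_neg hq]
      simp
  have hm2 : ∀ q ∈ A, (m q : ℝ) ≤ N * μ q := by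
    intro q hq
    simp only [m, if_pos hq]
    exact Nat.floor_le (mul_nonneg hN0 (h0 q))
  have hFc : (F.card : ℝ) ≤ N := by
    rw [hF1]
    push_cast
    refine (Finset.sum_le_sum hm2).trans ?_
    rw [← Finset.mul_sum]
    nlinarith
  refine ⟨F, ?_, ?_⟩
  · rw [← Finset.card_pos, hF1]
    have h2 : ∑ q ∈ A, ((N : ℝ) * μ q - 1) ≤ ∑ q ∈ A, (m q : ℝ) := by
      refine Finset.sum_le_sum fun q hq => ?_
      have := hm1 q
      rwa [if_pos hq] at this
    rw [Finset.sum_sub_distrib, ← Finset.mul_sum, Finset.sum_const, nsmul_eq_mul, mul_one] at h2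
    have h3 : (0 : ℝ) < ∑ q ∈ A, (m q : ℝ) := by nlinarith
    exact_mod_cast h3
  · intro g _
    rw [hF2]
    have h2 : ∑ q ∈ A, ((N : ℝ) * min (μ q) (if q * g ∈ A then μ (q * g) else 0) - 1) ≤
        ∑ q ∈ A, ((min (m q) (m (q * g)) : ℕ) : ℝ) := by
      refine Finset.sum_le_sum fun q hq => ?_
      rw [Nat.cast_min, le_min_iff]
      have h3 := hm1 q
      rw [if_pos hq] at h3
      have h4 := hm1 (q * g)
      have h5 := mul_le_mul_of_nonneg_left
        (min_le_left (μ q) (if q * g ∈ A then μ (q * g) else 0)) hN0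
      have h6 := mul_le_mul_of_nonneg_left
        (min_le_right (μ q) (if q * g ∈ A then μ (q * g) else 0)) hN0
      constructor <;> linarith
    rw [Finset.sum_sub_distrib, ← Finset.mul_sum, Finset.sum_const, nsmul_eq_mul, mul_one] at h2
    have h3 := mul_le_mul_of_nonneg_left (hlow g) hN0
    push_cast at h2 ⊢
    rcases le_or_gt 0 (1 - disp μ g / 2 - ε) with h5 | h5
    · have h6 := mul_le_mul_of_nonneg_left hFc h5
      nlinarith
    · have h6 : (1 - disp μ g / 2 - ε) * (F.card : ℝ) ≤ 0 :=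
        mul_nonpos_of_nonpos_of_nonneg h5.le (Nat.cast_nonneg _)
      refine h6.trans (Finset.sum_nonneg fun q _ => ?_)
      positivity

end

end Vale.Agent.P215.AI
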